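import Mathlib
import Vale.Agent.P209.Fill

/-!
P209: the packing conjecture for at most `2^n` balls, and for any number of balls of which at most
`2^n` are not small, with an arbitrary volume margin.
-/

namespace Vale.Agent.Results.P209.TwoPowLargeBalls

open _root_.P209

theorem result :
    ∀ n : ℕ, 0 < n →
      (∀ (k : ℕ) (R : ℝ) (r : Fin k → ℝ), k ≤ 2 ^ n → 0 < R → (∀ i, 0 < r i) →
        ∑ i, r i ^ n < R ^ n → (∀ i j, i ≠ j → r i + r j < R) →
        ∃ φ : Fin k → (Fin n → ℂ) → (Fin n → ℂ),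
          (∀ i, IsSympEmbedding n (r i) (φ i)) ∧
          (∀ i, φ i '' closedCapBall n (r i) ⊆ openCapBall n R) ∧
          ∀ i j, i ≠ j →
            Disjoint (φ i '' closedCapBall n (r i)) (φ j '' closedCapBall n (r j))) ∧
      ∀ ε : ℝ, 0 < ε → ∃ c : ℝ, 0 < c ∧
        ∀ (k : ℕ) (R : ℝ) (r : Fin k → ℝ), 0 < R → (∀ i, 0 < r i) →
          ∑ i, r i ^ n ≤ (1 - ε) * R ^ n → (∀ i j, i ≠ j → r i + r j < R) →
          (Finset.univ.filter fun i => c * R < r i).card ≤ 2 ^ n →
          ∃ φ : Fin k → (Fin n → ℂ) → (Fin n → ℂ),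
            (∀ i, IsSympEmbedding n (r i) (φ i)) ∧
            (∀ i, φ i '' closedCapBall n (r i) ⊆ openCapBall n R) ∧
            ∀ i j, i ≠ j →
              Disjoint (φ i '' closedCapBall n (r i)) (φ j '' closedCapBall n (r j)) := by
  intro n hn
  refine ⟨fun k R r hk hR hr hvol hpair => ?_, fun ε hε => packing_with_margin n hn ε hε⟩
  have hRn : 0 < R ^ n := pow_pos hR n
  have hε : 0 < 1 - (∑ i, r i ^ n) / R ^ n := sub_pos.2 ((div_lt_one hRn).2 hvol)
  obtain ⟨c, -, hp⟩ := packing_with_margin n hn _ hε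
  refine hp k R r hR hr (le_of_eq ?_) hpair ((Finset.card_filter_le _ _).trans (by simpa using hk))
  rw [sub_sub_cancel, div_mul_cancel₀ _ hRn.ne']

end Vale.Agent.Results.P209.TwoPowLargeBalls
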